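import Vale.Agent.P240.Reduce
import Vale.Agent.P240.Robinson.Defs

/-!
# Elementary abelian subgroups normalised by Robinson subgroups
-/

set_option linter.unusedSectionVars false

open scoped Classical

noncomputable section

namespace Vale.Agent.P240

namespace CompSys

variable {X : Type*} [Group X] [Finite X] {K : Subgroup X} {ι : Type*} [Fintype ι]
  {A : ι → Type*} [∀ i, Group (A i)] (S : CompSys K A) {p : ℕ}

/-- An elementary abelian subgroup normalised by a Robinson subgroup of a factor centralises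
that factor. -/
theorem cen_of_normalised {i : ι} {Q : Subgroup (A i)} (hQne : Q ≠ ⊥)
    (hW : ∀ W : Subgroup (A i), IsElem p W → (∀ q ∈ Q, ∀ w ∈ W, q * w * q⁻¹ ∈ W) → W = ⊥)
    (hα : ∀ α : MulAut (A i), α ^ p = 1 → (∀ q ∈ Q, α q = q) → α = 1)
    {E : Subgroup X} (hE : IsElem p E)
    (hfix : ∀ q ∈ Q, ∀ e ∈ E, S.j i q * e * (S.j i q)⁻¹ ∈ E) {e : X} (he : e ∈ E) :
    S.Cen e i := by
  have hcoord : ∀ f : Π l, A l, S.φ f ∈ E → f i = 1 := by
    intro f hf
    have hb := hW ((E.comap S.φ).map (Pi.evalMonoidHom A i)) ⟨?_, ?_⟩ ?_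
    · have hm : f i ∈ (E.comap S.φ).map (Pi.evalMonoidHom A i) := ⟨f, hf, rfl⟩
      rwa [hb, Subgroup.mem_bot] at hm
    · rintro _ ⟨g, hg, rfl⟩ _ ⟨g', hg', rfl⟩
      have := hE.1 _ hg _ hg'
      rw [← map_mul, ← map_mul] at this
      exact congrFun (S.inj this) i
    · rintro _ ⟨g, hg, rfl⟩
      have := hE.2 _ hg
      rw [← map_pow, ← S.φ.map_one] at this
      exact congrFun (S.inj this) i
    · rintro q hq _ ⟨g, hg, rfl⟩
      refine ⟨Pi.mulSingle i q * g * (Pi.mulSingle i q)⁻¹, ?_, by simp⟩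
      show S.φ _ ∈ E
      rw [map_mul, map_mul, map_inv]
      exact hfix q hq _ hg
  obtain ⟨l, hl⟩ := S.exists_perm e i
  have himg : ∀ a, ∃ b, e * S.j i a * e⁻¹ = S.j l b := by
    intro a
    have h : e * S.j i a * e⁻¹ ∈ cj e (S.L i) := by rw [mem_cj]; exact ⟨a, by group⟩
    rw [hl] at h
    obtain ⟨b, hb⟩ := h
    exact ⟨b, hb.symm⟩
  have hli : l = i := by
    by_contra hne
    obtain ⟨q, hq, hq1⟩ := (Subgroup.bot_or_exists_ne_one Q).resolve_left hQne
    obtain ⟨b, hb⟩ := himg q⁻¹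
    have hc : S.φ (Pi.mulSingle i q * Pi.mulSingle l b) ∈ E := by
      rw [map_mul, ← S.j_apply, ← S.j_apply, ← hb, map_inv,
        show S.j i q * (e * (S.j i q)⁻¹ * e⁻¹) = S.j i q * e * (S.j i q)⁻¹ * e⁻¹ by group]
      exact E.mul_mem (hfix q hq e he) (E.inv_mem he)
    have h1 := hcoord _ hc
    simp [Ne.symm hne] at h1
    exact hq1 h1
  subst hli
  have hF : S.Fix e l := hl
  refine (S.aut_eq_one_iff hF).1 (hα _ ?_ ?_)
  · have hpow : ∀ n : ℕ, ∀ a, S.j l (((S.aut hF) ^ n) a) = e ^ n * S.j l a * (e ^ n)⁻¹ := by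
      intro n
      induction n with
      | zero => intro a; simp
      | succ n ih =>
        intro a
        rw [pow_succ', MulAut.mul_apply, ← S.aut_spec hF, ih, pow_succ', mul_inv_rev]
        simp only [mul_assoc]
    refine MulEquiv.ext fun a => S.j_inj l ?_
    rw [hpow p a, hE.2 e he]
    simp
  · intro q hq
    have hc : S.φ (Pi.mulSingle l (q * (S.aut hF) q⁻¹)) ∈ E := by
      rw [← S.j_apply, map_mul, ← S.aut_spec hF, map_inv,
        show S.j l q * (e * (S.j l q)⁻¹ * e⁻¹) = S.j l q * e * (S.j l q)⁻¹ * e⁻¹ by group]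
      exact E.mul_mem (hfix q hq e he) (E.inv_mem he)
    have h1 := hcoord _ hc
    rw [Pi.mulSingle_eq_same, map_inv, mul_inv_eq_one] at h1
    exact h1.symm

end CompSys

end Vale.Agent.P240
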