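import Vale.Agent.P240.Smith.Iterate
import Vale.Agent.P240.Smith.Eliminate

/-!
# Two characteristics

A finite group whose components, modulo a normal subgroup of order prime to `p`, have Robinson
subgroups for one of two primes `r`, `s` has an order complex which is not acyclic modulo `r`.
-/

set_option linter.unusedSectionVars false

open scoped Classical

noncomputable section

namespace Vale.Agent.P240

variable {G Γ : Type*} [Group G] [Finite G] [Group Γ]

/-- An image of prime power order is the image of a subgroup of the same prime power order. -/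
theorem exists_pgroup_lift {ℓ : ℕ} [Fact ℓ.Prime] (π : G →* Γ) (D : Subgroup G)
    (hD : IsPGroup ℓ (D.map π)) :
    ∃ P : Subgroup G, P ≤ D ∧ IsPGroup ℓ P ∧ P.map π = D.map π ∧
      ∀ P' : Subgroup G, P' ≤ D → IsPGroup ℓ P' → Nat.card P' = Nat.card P →
        ∃ d ∈ D, cj d P = P' := by
  obtain ⟨S⟩ : Nonempty (Sylow ℓ D) := inferInstance
  refine ⟨(S : Subgroup D).map D.subtype, Subgroup.map_subtype_le _, S.isPGroup'.map _, ?_, ?_⟩
  · set f := π.subgroupMap D with hf
    have hsurj : Function.Surjective f := π.subgroupMap_surjective D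
    set T := S.mapSurjective hsurj with hT
    have htop : (T : Subgroup (D.map π)) = ⊤ :=
      T.is_maximal' (hD.to_subgroup ⊤) le_top |>.symm
    refine le_antisymm (Subgroup.map_mono (Subgroup.map_subtype_le _)) fun y hy => ?_
    have hm : (⟨y, hy⟩ : D.map π) ∈ (S : Subgroup D).map f := by
      rw [← Sylow.coe_mapSurjective hsurj, ← hT, htop]; trivial
    obtain ⟨d, hd, e⟩ := hm
    exact ⟨d, ⟨d, hd, rfl⟩, congrArg Subtype.val e⟩
  · intro P' hle hP' hcard
    have hc : Nat.card (P'.subgroupOf D) = ℓ ^ (Nat.card D).factorization ℓ := by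
      rw [Nat.card_congr (Subgroup.subgroupOfEquivOfLe hle).toEquiv, hcard,
        Nat.card_congr ((S : Subgroup D).equivMapOfInjective _ D.subtype_injective).symm.toEquiv]
      exact S.card_eq_multiplicity
    obtain ⟨d, hd⟩ := MulAction.exists_smul_eq D S (Sylow.ofCard (P'.subgroupOf D) hc)
    refine ⟨d, d.2, ?_⟩
    have h : ∀ x : D, x ∈ P'.subgroupOf D ↔ d⁻¹ * x * d ∈ (S : Subgroup D) := by
      intro x
      have e := congrArg (fun T : Sylow ℓ D => (T : Subgroup D)) hd
      simp only [Sylow.coe_ofCard, Sylow.coe_subgroup_smul] at e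
      rw [← e, Subgroup.mem_pointwise_smul_iff_inv_smul_mem]
      simp [mul_assoc]
    ext x
    rw [mem_cj]
    constructor
    · rintro ⟨y, hy, e⟩
      have hx : x = d * y * (d : G)⁻¹ := by
        rw [show (y : G) = (d : G)⁻¹ * x * d from e]; group
      have := (h (d * y * d⁻¹)).2 (by
        rw [show d⁻¹ * (d * y * d⁻¹) * d = y by group]; exact hy)
      rw [Subgroup.mem_subgroupOf] at this
      rw [hx]; exact this
    · intro hx
      exact ⟨d⁻¹ * ⟨x, hle hx⟩ * d, (h ⟨x, hle hx⟩).1 hx, by simp⟩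

/-- Two commuting classes of Robinson subgroups. -/
theorem hasReducedHomology_two {G : Type*} [Group G] [Finite G] {p r s : ℕ} [Fact p.Prime]
    [Fact r.Prime] [Fact s.Prime] (N : Subgroup G) [N.Normal] (hN : ¬ p ∣ Nat.card N)
    {ι : Type*} [Fintype ι] (A : ι → Type*) [∀ i, Group (A i)]
    (S : CompSys (⊤ : Subgroup (G ⧸ N)) A)
    (hR : ∀ i, HasRobinson p r (A i) ∨ HasRobinson p s (A i)) :
    HasReducedHomology (ZMod r) (elemAbelianSubgroups p G) := by
  let : Fintype (Subgroup G) := Fintype.ofFinite _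
  rw [hasReducedHomology_iff]
  by_contra hno
  push Not at hno
  have hch : ∀ i, ∃ Q : Subgroup (A i), Q ≠ ⊥ ∧
      (HasRobinson p r (A i) → IsPGroup r Q) ∧ (¬ HasRobinson p r (A i) → IsPGroup s Q) ∧
      (∀ W : Subgroup (A i), IsElem p W → (∀ q ∈ Q, ∀ w ∈ W, q * w * q⁻¹ ∈ W) → W = ⊥) ∧
      ∀ α : MulAut (A i), α ^ p = 1 → (∀ q ∈ Q, α q = q) → α = 1 := by
    intro i
    by_cases h : HasRobinson p r (A i)
    · obtain ⟨Q, h1, h2, h3, h4⟩ := id h
      exact ⟨Q, h1, fun _ => h2, fun h' => absurd h h', h3, h4⟩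
    · obtain ⟨Q, h1, h2, h3, h4⟩ := (hR i).resolve_left h
      exact ⟨Q, h1, fun h' => absurd h' h, fun _ => h2, h3, h4⟩
  choose Q hQne hQr hQs hQinv hQaut using hch
  let Qa : ∀ i, Subgroup (A i) := fun i => if HasRobinson p r (A i) then Q i else ⊥
  let Qb : ∀ i, Subgroup (A i) := fun i => if HasRobinson p r (A i) then ⊥ else Q i
  set π := QuotientGroup.mk' N with hπ
  set Pa : Subgroup (G ⧸ N) := (Subgroup.pi Set.univ Qa).map S.φ with hPa
  set Pb : Subgroup (G ⧸ N) := (Subgroup.pi Set.univ Qb).map S.φ with hPb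
  have hpgrp : ∀ {ℓ : ℕ} (T : ∀ i, Subgroup (A i)), (∀ i, IsPGroup ℓ (T i)) →
      IsPGroup ℓ ((Subgroup.pi Set.univ T).map S.φ) := by
    intro ℓ T hT
    refine IsPGroup.map ?_ S.φ
    intro f
    choose k hk using fun i => hT i ⟨(f : Π i, A i) i, (Subgroup.mem_pi _).1 f.2 i trivial⟩
    refine ⟨Finset.univ.sup k, Subtype.ext (funext fun i => ?_)⟩
    obtain ⟨d, hd⟩ := Nat.exists_eq_add_of_le (Finset.le_sup (f := k) (Finset.mem_univ i))
    have h1 : ((f : Π i, A i) i) ^ ℓ ^ k i = 1 := by simpa using congrArg Subtype.val (hk i)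
    simp [hd, pow_add, pow_mul, h1]
  have hPar : IsPGroup r Pa := hpgrp Qa fun i => by
    by_cases h : HasRobinson p r (A i)
    · rw [show Qa i = Q i from if_pos h]; exact hQr i h
    · rw [show Qa i = ⊥ from if_neg h]; exact IsPGroup.of_bot
  have hPbs : IsPGroup s Pb := hpgrp Qb fun i => by
    by_cases h : HasRobinson p r (A i)
    · rw [show Qb i = ⊥ from if_pos h]; exact IsPGroup.of_bot
    · rw [show Qb i = Q i from if_neg h]; exact hQs i h
  have hcomm : ∀ a ∈ Pa, ∀ b ∈ Pb, b * a = a * b := by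
    rintro _ ⟨f, hf, rfl⟩ _ ⟨g, hg, rfl⟩
    rw [← map_mul, ← map_mul]
    congr 1
    funext i
    have h1 := (Subgroup.mem_pi _).1 hf i trivial
    have h2 := (Subgroup.mem_pi _).1 hg i trivial
    simp only [Qa, Qb] at h1 h2
    split_ifs at h1 h2 with h
    · simp [Subgroup.mem_bot.1 h2]
    · simp [Subgroup.mem_bot.1 h1]
  have hsurj : Function.Surjective π := QuotientGroup.mk'_surjective N
  set M := Pa.comap π with hM
  have hMmap : M.map π = Pa := Subgroup.map_comap_eq_self_of_surjective hsurj _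
  obtain ⟨P, hPM, hP, hPmap, hconj⟩ := exists_pgroup_lift π M (hMmap.symm ▸ hPar)
  rw [hMmap] at hPmap
  -- the elements over `Pb` normalising `P` cover `Pb`
  let D : Subgroup G :=
    { carrier := {g | π g ∈ Pb ∧ cj g P = P}
      one_mem' := ⟨by simp, cj_one P⟩
      mul_mem' := fun {a b} ha hb => ⟨by rw [map_mul]; exact Pb.mul_mem ha.1 hb.1,
        by rw [cj_mul, hb.2, ha.2]⟩
      inv_mem' := fun {a} ha => ⟨by rw [map_inv]; exact Pb.inv_mem ha.1, by
        conv_lhs => rw [← ha.2]
        rw [← cj_mul, inv_mul_cancel, cj_one]⟩ }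
  have hDmap : D.map π = Pb := by
    refine le_antisymm ?_ fun b hb => ?_
    · rintro _ ⟨g, hg, rfl⟩; exact hg.1
    obtain ⟨y, rfl⟩ := hsurj b
    have hle : cj y P ≤ M := by
      intro x hx
      rw [mem_cj] at hx
      show π x ∈ Pa
      have ha : π (y⁻¹ * x * y) ∈ Pa := hPM hx
      have e := hcomm _ ha _ hb
      rw [map_mul, map_mul, map_inv] at e ha
      have e' : π x * π y = (π y)⁻¹ * π x * π y * π y := by
        rw [← e]; group
      rwa [← mul_right_cancel e'] at ha
    obtain ⟨m, hm, hmy⟩ := hconj _ hle (by rw [cj_eq_map]; exact hP.map _) (by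
      rw [cj_eq_map]; exact Nat.card_congr
        (P.equivMapOfInjective _ (MulAut.conj y).injective).symm.toEquiv)
    obtain ⟨u, hu, hum⟩ : π m ∈ P.map π := hPmap.symm ▸ hm
    refine ⟨u * (m⁻¹ * y), ⟨?_, ?_⟩, ?_⟩
    · show π (u * (m⁻¹ * y)) ∈ Pb
      rw [map_mul, map_mul, map_inv, hum, mul_inv_cancel_left]
      exact hb
    · rw [cj_mul, cj_mul, ← hmy, ← cj_mul m⁻¹ m, inv_mul_cancel, cj_one, cj_of_mem hu]
    · rw [map_mul, map_mul, map_inv, hum, mul_inv_cancel_left]
  obtain ⟨R, hRD, hR', hRmap, -⟩ := exists_pgroup_lift π D (hDmap.symm ▸ hPbs)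
  rw [hDmap] at hRmap
  let act : ∀ H : Subgroup G, MulAction H (Subgroup G) := fun H =>
    { smul := fun x E => cj (x : G) E
      one_smul := fun E => cj_one E
      mul_smul := fun x y E => cj_mul (x : G) (y : G) E }
  set U := elemAbelianSubgroups p G with hU
  set U1 : Set (Subgroup G) := {E | E ∈ U ∧ ∀ x : P, cj (x : G) E = E} with hU1
  have h1 : ∀ n, Van (ZMod r) U1 n :=
    @Smith.fixed_acyclic_group (ZMod r) _ (Subgroup G) _ _ r _ _ P _ _ hP (act P)
      (fun x a b h => (cj (x : G)).monotone h) U (fun x a ha => cj_mem_elem _ ha) hno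
  have h0 : Chi U1 = 0 := Smith.chi_eq_zero h1
  have hpres : ∀ (x : R), ∀ E ∈ U1, cj (x : G) E ∈ U1 := by
    intro x E hE
    refine ⟨cj_mem_elem _ hE.1, fun y => ?_⟩
    have hy : (x : G)⁻¹ * y * x ∈ P := by
      rw [← mem_cj, (hRD x.2).2]; exact y.2
    rw [← cj_mul, show (y : G) * x = x * ((x : G)⁻¹ * y * x) by group, cj_mul, hE.2 ⟨_, hy⟩]
  have hcong := @chi_modEq_fixed (Subgroup G) _ _ s _ R _ _ hR' (act R)
    (fun x a b h => (cj (x : G)).monotone h) U1 hpres
  have hempty : {E | E ∈ U1 ∧ ∀ x : R, cj (x : G) E = E} = (∅ : Set (Subgroup G)) := by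
    rw [Set.eq_empty_iff_forall_notMem]
    rintro E ⟨⟨hE, hfP⟩, hfR⟩
    have hnorm : ∀ a ∈ Pa ⊔ Pb, ∀ e ∈ E.map π, a * e * a⁻¹ ∈ E.map π := by
      let Nm : Subgroup (G ⧸ N) :=
        { carrier := {a | cj a (E.map π) = E.map π}
          one_mem' := cj_one _
          mul_mem' := fun {a b} ha hb => by
            show cj (a * b) (E.map π) = E.map π
            rw [cj_mul, hb, ha]
          inv_mem' := fun {a} ha => by
            show cj a⁻¹ (E.map π) = E.map π
            conv_lhs => rw [← show cj a (E.map π) = E.map π from ha]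
            rw [← cj_mul, inv_mul_cancel, cj_one] }
      have hle : Pa ⊔ Pb ≤ Nm := by
        refine sup_le ?_ ?_
        · rw [← hPmap]; rintro _ ⟨x, hx, rfl⟩
          show cj (π x) (E.map π) = E.map π
          rw [← map_cj, hfP ⟨x, hx⟩]
        · rw [← hRmap]; rintro _ ⟨x, hx, rfl⟩
          show cj (π x) (E.map π) = E.map π
          rw [← map_cj, hfR ⟨x, hx⟩]
      intro a ha e he
      rw [← show cj a (E.map π) = E.map π from hle ha, mem_cj]
      simpa [mul_assoc] using he
    have hmemQ : ∀ i, ∀ q ∈ Q i, S.j i q ∈ Pa ⊔ Pb := by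
      intro i q hq
      by_cases h : HasRobinson p r (A i)
      · refine Subgroup.mem_sup_left ⟨Pi.mulSingle i q, (Subgroup.mem_pi _).2 fun l _ => ?_, rfl⟩
        by_cases hl : l = i
        · subst hl; simpa [Qa, h] using hq
        · simp [hl]
      · refine Subgroup.mem_sup_right ⟨Pi.mulSingle i q, (Subgroup.mem_pi _).2 fun l _ => ?_, rfl⟩
        by_cases hl : l = i
        · subst hl; simpa [Qb, h] using hq
        · simp [hl]
    have hle : E ≤ N := by
      intro x hx
      rw [← QuotientGroup.eq_one_iff]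
      refine S.eq_one_of_cen trivial fun i => ?_
      exact S.cen_of_normalised (hQne i) (hQinv i) (hQaut i) (hE.2.map π)
        (fun q hq e he => hnorm _ (hmemQ i q hq) e he) ⟨x, hx, rfl⟩
    have h2 : E ⊓ N = ⊥ := inf_eq_bot_of_coprime
      ((Fact.out : p.Prime).coprime_iff_not_dvd.2 hN).symm hE.2.isPGroup
    exact hE.1 (by rwa [inf_eq_left.2 hle] at h2)
  rw [h0] at hcong
  change ((0 : ℤ) : ZMod s) = ((Chi {E | E ∈ U1 ∧ ∀ x : R, cj (x : G) E = E} : ℤ) : ZMod s) at hcong
  rw [hempty] at hcong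
  have h2 : Chi (∅ : Set (Subgroup G)) = 1 := by
    rw [Chi, show allChains (∅ : Set (Subgroup G)) = {∅} by
      ext t
      rw [mem_allChains, Finset.mem_singleton]
      refine ⟨fun h => ?_, fun h => by subst h; simp [IsChain, Set.Pairwise]⟩
      ext a
      simpa using fun ha => h.2 ha]
    simp
  rw [h2] at hcong
  simp at hcong

end Vale.Agent.P240
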