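import Vale.Agent.P240.Lefschetz

/-!
# Smith theory for order complexes

If an automorphism of order `ℓ` acts on a poset whose order complex is acyclic in
characteristic `ℓ`, then the subposet of fixed points is acyclic as well.
-/

set_option linter.unusedSectionVars false

open scoped Classical

noncomputable section

namespace Vale.Agent.P240

namespace Smith

variable {k : Type*} [Field k] {α : Type*} [PartialOrder α] [Fintype α] {U : Set α}

/-- The fixed points of `g` in `U`. -/
def fixSet (g : α ≃o α) (U : Set α) : Set α := {a | a ∈ U ∧ g a = a}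

/-- The permutation of finite subsets induced by `g`. -/
def imEquiv (g : α ≃o α) : Finset α ≃ Finset α where
  toFun s := s.image g
  invFun s := s.image g.symm
  left_inv s := by simp [Finset.image_image, Function.comp_def]
  right_inv s := by simp [Finset.image_image, Function.comp_def]

/-- The chain map induced by `g`. -/
def pushG (k : Type*) [Field k] (g : α ≃o α) : (Finset α →₀ k) →ₗ[k] (Finset α →₀ k) :=
  Finsupp.lmapDomain k k (imEquiv g)

theorem pushG_single (g : α ≃o α) (s : Finset α) (c : k) :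
    pushG k g (Finsupp.single s c) = Finsupp.single (s.image g) c := by
  simp [pushG, imEquiv]

theorem bd_pushG (g : α ≃o α) (z : Finset α →₀ k) :
    bd k α (pushG k g z) = pushG k g (bd k α z) := by
  induction z using Finsupp.induction_linear with
  | zero => simp
  | add x y hx hy => simp only [map_add, hx, hy]
  | single s c =>
    rw [pushG_single, bd_single, bd_single, map_sum, Finset.sum_image g.injective.injOn]
    refine Finset.sum_congr rfl fun a ha => ?_
    rw [pushG_single, Finset.image_erase g.injective]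
    have hb : below (s.image g) (g a) = below s a := by
      unfold below
      rw [Finset.filter_image, Finset.card_image_of_injective _ g.injective]
      simp [g.lt_iff_lt]
    rw [hb]

/-- The difference map. -/
def tau (k : Type*) [Field k] (g : α ≃o α) : (Finset α →₀ k) →ₗ[k] (Finset α →₀ k) :=
  LinearMap.id - pushG k g

/-- The norm map. -/
def sig (k : Type*) [Field k] (g : α ≃o α) (ℓ : ℕ) : (Finset α →₀ k) →ₗ[k] (Finset α →₀ k) :=
  ∑ i ∈ Finset.range ℓ, pushG k g ^ i

theorem bd_tau (g : α ≃o α) (z : Finset α →₀ k) : bd k α (tau k g z) = tau k g (bd k α z) := by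
  simp [tau, bd_pushG]

theorem bd_pow (g : α ≃o α) (i : ℕ) (z : Finset α →₀ k) :
    bd k α ((pushG k g ^ i) z) = (pushG k g ^ i) (bd k α z) := by
  induction i with
  | zero => simp
  | succ i ih => rw [pow_succ', Module.End.mul_apply, Module.End.mul_apply, bd_pushG, ih]

theorem bd_sig (g : α ≃o α) (ℓ : ℕ) (z : Finset α →₀ k) :
    bd k α (sig k g ℓ z) = sig k g ℓ (bd k α z) := by
  simp [sig, LinearMap.sum_apply, map_sum, bd_pow]

theorem pow_apply (g : α ≃o α) (i : ℕ) (z : Finset α →₀ k) (s : Finset α) :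
    (pushG k g ^ i) z ((imEquiv g)^[i] s) = z s := by
  induction i with
  | zero => simp
  | succ i ih =>
    rw [pow_succ', Module.End.mul_apply, Function.iterate_succ_apply', pushG,
      Finsupp.lmapDomain_apply, Finsupp.mapDomain_apply (imEquiv g).injective, ← pushG, ih]

theorem iterate_image (g : α ≃o α) (i : ℕ) (s : Finset α) :
    (imEquiv g)^[i] s = s.image (⇑g)^[i] := by
  induction i with
  | zero => simp
  | succ i ih =>
    rw [Function.iterate_succ_apply', ih, Function.iterate_succ']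
    show Finset.image g _ = _
    rw [Finset.image_image]

variable {g : α ≃o α}

theorem pushG_mem (hU : ∀ a ∈ U, g a ∈ U) {n : ℕ} {z : Finset α →₀ k} (hz : z ∈ CC k U n) :
    pushG k g z ∈ CC k U n := by
  refine CC_induction (P := fun z => pushG k g z ∈ CC k U n) hz (by simp)
    (fun x y hx hy => by rw [map_add]; exact add_mem hx hy) (fun s hs c => ?_)
  rw [pushG_single]
  refine single_mem_CC ⟨?_, ?_, ?_⟩ c
  · rw [Finset.coe_image]
    rintro _ ⟨a, ha, rfl⟩ _ ⟨b, hb, rfl⟩ hne
    exact (hs.1 ha hb fun e => hne (e ▸ rfl)).imp (fun h => g.monotone h) fun h => g.monotone h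
  · rw [Finset.coe_image]
    rintro _ ⟨a, ha, rfl⟩
    exact hU a (hs.2.1 ha)
  · rw [Finset.card_image_of_injective _ g.injective, hs.2.2]

theorem tau_mem (hU : ∀ a ∈ U, g a ∈ U) {n : ℕ} {z : Finset α →₀ k} (hz : z ∈ CC k U n) :
    tau k g z ∈ CC k U n := by
  rw [tau, LinearMap.sub_apply, LinearMap.id_apply]
  exact sub_mem hz (pushG_mem hU hz)

theorem pow_mem (hU : ∀ a ∈ U, g a ∈ U) {n : ℕ} {z : Finset α →₀ k} (hz : z ∈ CC k U n) (i : ℕ) :
    (pushG k g ^ i) z ∈ CC k U n := by
  induction i with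
  | zero => simpa
  | succ i ih => rw [pow_succ', Module.End.mul_apply]; exact pushG_mem hU ih

theorem sig_mem (hU : ∀ a ∈ U, g a ∈ U) (ℓ : ℕ) {n : ℕ} {z : Finset α →₀ k}
    (hz : z ∈ CC k U n) : sig k g ℓ z ∈ CC k U n := by
  rw [sig, LinearMap.sum_apply]
  exact Submodule.sum_mem _ fun i _ => pow_mem hU hz i

/-- Restriction of coefficients to a set of simplices. -/
def cut (k : Type*) [Field k] (S : Set (Finset α)) : (Finset α →₀ k) →ₗ[k] (Finset α →₀ k) :=
  Finsupp.linearCombination k (fun s => if s ∈ S then Finsupp.single s 1 else 0)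

theorem cut_apply (S : Set (Finset α)) (z : Finset α →₀ k) (s : Finset α) :
    cut k S z s = if s ∈ S then z s else 0 := by
  induction z using Finsupp.induction_linear with
  | zero => simp
  | add x y hx hy => simp only [map_add, Finsupp.add_apply, hx, hy]; split_ifs <;> simp
  | single t c =>
    by_cases h : t = s
    · subst h; by_cases ht : t ∈ S <;> simp [cut, ht]
    · by_cases ht : t ∈ S <;> simp [cut, ht, Ne.symm h]

theorem cut_mem (S : Set (Finset α)) {n : ℕ} {z : Finset α →₀ k} (hz : z ∈ CC k U n) :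
    cut k S z ∈ CC k U n := by
  refine CC_induction (P := fun z => cut k S z ∈ CC k U n) hz (by simp)
    (fun x y hx hy => by rw [map_add]; exact add_mem hx hy) (fun s hs c => ?_)
  by_cases h : s ∈ S
  · simp [cut, h, single_mem_CC hs c]
  · simp [cut, h]

/-- The finite subsets which are not moved. -/
def fixCh (g : α ≃o α) : Set (Finset α) := {s | imEquiv g s = s}

/-- The least member of the orbit in an auxiliary enumeration. -/
def Rep (g : α ≃o α) (ℓ : ℕ) : Set (Finset α) :=
  {s | imEquiv g s ≠ s ∧ ∀ i < ℓ, Fintype.equivFin (Finset α) s ≤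
    Fintype.equivFin (Finset α) ((imEquiv g)^[i] s)}

theorem cut_fix_tau (z : Finset α →₀ k) : cut k (fixCh g) (tau k g z) = 0 := by
  ext s
  rw [cut_apply]
  split_ifs with h
  · have e := pow_apply g 1 z s
    rw [pow_one, Function.iterate_one, show imEquiv g s = s from h] at e
    simp [tau, e]
  · simp

theorem cut_fix_sig {ℓ : ℕ} [CharP k ℓ] (z : Finset α →₀ k) :
    cut k (fixCh g) (sig k g ℓ z) = 0 := by
  ext s
  rw [cut_apply]
  split_ifs with h
  · have e : ∀ i, (pushG k g ^ i) z s = z s := fun i => by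
      have := pow_apply g i z s
      rwa [Function.iterate_fixed (show imEquiv g s = s from h)] at this
    simp [sig, LinearMap.sum_apply, e]
  · simp

theorem cut_of_mem_fixSet {n : ℕ} {z : Finset α →₀ k} (hz : z ∈ CC k (fixSet g U) n) :
    cut k (fixCh g) z = z := by
  refine CC_induction (P := fun z => cut k (fixCh g) z = z) hz (by simp)
    (fun x y hx hy => by rw [map_add, hx, hy]) (fun s hs c => ?_)
  have : s ∈ fixCh g := by
    show s.image g = s
    exact (Finset.image_congr fun a ha => (hs.2.1 ha).2).trans Finset.image_id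
  simp [cut, this]

theorem cut_fix_mem {n : ℕ} {z : Finset α →₀ k} (hz : z ∈ CC k U n) :
    cut k (fixCh g) z ∈ CC k (fixSet g U) n := by
  refine CC_induction (P := fun z => cut k (fixCh g) z ∈ CC k (fixSet g U) n) hz (by simp)
    (fun x y hx hy => by rw [map_add]; exact add_mem hx hy) (fun s hs c => ?_)
  by_cases h : s ∈ fixCh g
  · simp only [cut, Finsupp.linearCombination_single, if_pos h, Finsupp.smul_single, smul_eq_mul,
      mul_one]
    have hsub : (↑s : Set α) ⊆ fixSet g U := fun a ha =>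
      ⟨hs.2.1 ha, fixed_pointwise hs.1 h (Finset.mem_coe.1 ha)⟩
    exact single_mem_CC ⟨hs.1, hsub, hs.2.2⟩ c
  · simp [cut, h]

variable {ℓ : ℕ} [hℓ : Fact ℓ.Prime]

theorem period (hg : ∀ a ∈ U, (⇑g)^[ℓ] a = a) {n : ℕ} {s : Finset α} (hs : s ∈ chainSets U n) :
    Function.IsPeriodicPt (imEquiv g) ℓ s := by
  show (imEquiv g)^[ℓ] s = s
  rw [iterate_image]
  exact (Finset.image_congr fun a ha => hg a (hs.2.1 ha)).trans Finset.image_id

theorem orbit_inj (hg : ∀ a ∈ U, (⇑g)^[ℓ] a = a) {n : ℕ} {s : Finset α} (hs : s ∈ chainSets U n)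
    (hne : imEquiv g s ≠ s) {i j : ℕ} (hi : i < ℓ) (hj : j < ℓ)
    (e : (imEquiv g)^[i] s = (imEquiv g)^[j] s) : i = j := by
  have hmin : Function.minimalPeriod (imEquiv g) s = ℓ := by
    rcases hℓ.out.eq_one_or_self_of_dvd _ (period hg hs).minimalPeriod_dvd with h | h
    · exact absurd (Function.minimalPeriod_eq_one_iff_isFixedPt.1 h) hne
    · exact h
  exact Function.iterate_injOn_Iio_minimalPeriod (show i < _ by rw [hmin]; exact hi)
    (show j < _ by rw [hmin]; exact hj) e

/-- A simplex of `U` which is moved has exactly one translate in `Rep`. -/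
theorem rep_unique (hg : ∀ a ∈ U, (⇑g)^[ℓ] a = a) {n : ℕ}
    {s : Finset α} (hs : s ∈ chainSets U n) (hne : imEquiv g s ≠ s) :
    ∃! i, i < ℓ ∧ ∃ t ∈ Rep g ℓ, (imEquiv g)^[i] t = s := by
  set e := Fintype.equivFin (Finset α)
  obtain ⟨m, hm, hmin⟩ := (Finset.range ℓ).exists_min_image
    (fun i => e ((imEquiv g)^[i] s)) ⟨0, Finset.mem_range.2 hℓ.out.pos⟩
  rw [Finset.mem_range] at hm
  have hper := period hg hs
  have hmod : ∀ i, (imEquiv g)^[i] s = (imEquiv g)^[i % ℓ] s := fun i =>
    (hper.iterate_mod_apply i).symm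
  set t := (imEquiv g)^[m] s with ht
  have hrep : t ∈ Rep g ℓ := by
    refine ⟨fun h => hne ?_, fun i _ => ?_⟩
    · rw [ht, ← Function.iterate_succ_apply' (imEquiv g) m, Function.iterate_succ_apply] at h
      exact ((imEquiv g).injective.iterate m) h
    · rw [ht, ← Function.iterate_add_apply, hmod (_ + m)]
      exact hmin _ (Finset.mem_range.2 (Nat.mod_lt _ hℓ.out.pos))
  refine ⟨(ℓ - m) % ℓ, ⟨Nat.mod_lt _ hℓ.out.pos, t, hrep, ?_⟩, ?_⟩
  · rw [ht, ← Function.iterate_add_apply, hmod, Nat.add_mod, Nat.mod_mod, ← Nat.add_mod,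
      Nat.sub_add_cancel hm.le, Nat.mod_self, Function.iterate_zero_apply]
  rintro i ⟨hi, t', ⟨-, ht'⟩, rfl⟩
  have hper' : (imEquiv g)^[ℓ] t' = t' := (imEquiv g).injective.iterate i (by
    rw [← Function.iterate_add_apply, Nat.add_comm, Function.iterate_add_apply]
    exact hper)
  have ht't : t' = t := by
    have h1 : e t' ≤ e t := by
      rw [ht, ← Function.iterate_add_apply,
        ← (show Function.IsPeriodicPt (imEquiv g) ℓ t' from hper').iterate_mod_apply]
      exact ht' _ (Nat.mod_lt _ hℓ.out.pos)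
    have h2 : e t ≤ e t' := by
      have := hmin ((ℓ - i) % ℓ) (Finset.mem_range.2 (Nat.mod_lt _ hℓ.out.pos))
      rwa [← hmod, ← Function.iterate_add_apply, Nat.sub_add_cancel hi.le, hper'] at this
    exact e.injective (le_antisymm h1 h2)
  have h0 : (i + m) % ℓ = 0 := by
    refine orbit_inj hg hs hne (Nat.mod_lt _ hℓ.out.pos) hℓ.out.pos ?_
    rw [← hmod, Function.iterate_add_apply, ← ht, ← ht't, Function.iterate_zero_apply]
  rcases Nat.eq_zero_or_pos m with rfl | hm0
  · rw [Nat.add_zero, Nat.mod_eq_of_lt hi] at h0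
    simp [h0]
  · rw [Nat.mod_eq_of_lt (show ℓ - m < ℓ by omega)]
    rcases Nat.lt_or_ge (i + m) ℓ with h | h
    · rw [Nat.mod_eq_of_lt h] at h0; omega
    · rw [Nat.mod_eq_sub_mod h, Nat.mod_eq_of_lt (by omega)] at h0; omega

theorem eq_zero_of_notMem {n : ℕ} {z : Finset α →₀ k} (hz : z ∈ CC k U n) {u : Finset α}
    (hu : u ∉ chainSets U n) : z u = 0 := by
  by_contra hne
  exact hu ((Finsupp.mem_supported k z).1 hz (Finsupp.mem_support_iff.2 hne))

/-- Splitting a chain along the translates of the representatives and the fixed simplices. -/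
theorem sum_rep (hg : ∀ a ∈ U, (⇑g)^[ℓ] a = a) {n : ℕ} {x : Finset α →₀ k}
    (hx : x ∈ CC k U n) (s : Finset α) :
    x s = (∑ i ∈ Finset.range ℓ, if ∃ t ∈ Rep g ℓ, (imEquiv g)^[i] t = s then x s else 0) +
      (if s ∈ fixCh g then x s else 0) := by
  by_cases hs : s ∈ chainSets U n
  · by_cases hf : imEquiv g s = s
    · rw [if_pos (show s ∈ fixCh g from hf), Finset.sum_eq_zero, zero_add]
      intro i _
      rw [if_neg]
      rintro ⟨t, ht, e⟩
      refine ht.1 ((imEquiv g).injective.iterate i ?_)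
      rw [← Function.iterate_succ_apply, Function.iterate_succ_apply', e, hf]
    · rw [if_neg (show s ∉ fixCh g from hf), add_zero]
      obtain ⟨i, ⟨hi, hex⟩, huniq⟩ := rep_unique hg hs hf
      rw [Finset.sum_eq_single i (fun j hj hne => if_neg fun hjx =>
        hne (huniq j ⟨Finset.mem_range.1 hj, hjx⟩)) (fun h => absurd (Finset.mem_range.2 hi) h),
        if_pos hex]
  · simp [eq_zero_of_notMem hx hs]

/-- The kernel of the difference map. -/
theorem eq_sig_add (hg : ∀ a ∈ U, (⇑g)^[ℓ] a = a) {n : ℕ}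
    {x : Finset α →₀ k} (hx : x ∈ CC k U n) (h : tau k g x = 0) :
    x = sig k g ℓ (cut k (Rep g ℓ) x) + cut k (fixCh g) x := by
  rw [tau, LinearMap.sub_apply, LinearMap.id_apply, sub_eq_zero] at h
  have hinv : ∀ i, (pushG k g ^ i) x = x := by
    intro i
    induction i with
    | zero => simp
    | succ i ih => rw [pow_succ', Module.End.mul_apply, ih, ← h]
  ext s
  rw [Finsupp.add_apply, cut_apply, sig, LinearMap.sum_apply, Finsupp.finsetSum_apply]
  have key : ∀ i, (pushG k g ^ i) (cut k (Rep g ℓ) x) s =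
      if ∃ t ∈ Rep g ℓ, (imEquiv g)^[i] t = s then x s else 0 := by
    intro i
    obtain ⟨t, rfl⟩ := ((imEquiv g).bijective.iterate i).2 s
    rw [pow_apply, cut_apply]
    have hx' : x ((imEquiv g)^[i] t) = x t := by
      have := pow_apply g i x t
      rwa [hinv] at this
    by_cases ht : t ∈ Rep g ℓ
    · rw [if_pos ht, if_pos ⟨t, ht, rfl⟩, hx']
    · rw [if_neg ht, if_neg]
      rintro ⟨t', ht', e⟩
      exact ht ((imEquiv g).injective.iterate i e ▸ ht')
  simp only [key]
  exact sum_rep hg hx s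

/-- The kernel of the norm map. -/
theorem eq_tau_add (hg : ∀ a ∈ U, (⇑g)^[ℓ] a = a) (hU : ∀ a ∈ U, g a ∈ U) {n : ℕ}
    {x : Finset α →₀ k} (hx : x ∈ CC k U n) (h : sig k g ℓ x = 0) :
    ∃ v ∈ CC k U n, x = tau k g v + cut k (fixCh g) x := by
  -- the component of `x` over the `j`-th translate of the representatives, moved back
  set y : ℕ → (Finset α →₀ k) := fun j =>
    cut k (Rep g ℓ) ((pushG k g ^ (ℓ - j)) x) with hy
  have hsumy : ∑ j ∈ Finset.range ℓ, y j = 0 := by
    have e : ∀ j ∈ Finset.range ℓ, (pushG k g ^ (j + 1)) x = (pushG k g ^ (ℓ - (ℓ - 1 - j))) x :=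
      fun j hj => by
        have := Finset.mem_range.1 hj
        rw [show ℓ - (ℓ - 1 - j) = j + 1 by omega]
    have h1 : ∑ j ∈ Finset.range ℓ, (pushG k g ^ (j + 1)) x = pushG k g (sig k g ℓ x) := by
      rw [sig, LinearMap.sum_apply, map_sum]
      exact Finset.sum_congr rfl fun j _ => by rw [pow_succ', Module.End.mul_apply]
    rw [h, map_zero, Finset.sum_congr rfl e,
      Finset.sum_range_reflect (fun j => (pushG k g ^ (ℓ - j)) x) ℓ] at h1
    rw [hy, ← map_sum, h1, map_zero]
  have hdec : x = ∑ j ∈ Finset.range ℓ, (pushG k g ^ j) (y j) + cut k (fixCh g) x := by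
    ext s
    rw [Finsupp.add_apply, cut_apply, Finsupp.finsetSum_apply]
    have key : ∀ j ∈ Finset.range ℓ, (pushG k g ^ j) (y j) s =
        if ∃ t ∈ Rep g ℓ, (imEquiv g)^[j] t = s then x s else 0 := by
      intro j hj
      obtain ⟨t, rfl⟩ := ((imEquiv g).bijective.iterate j).2 s
      rw [pow_apply, hy, cut_apply]
      by_cases ht : t ∈ Rep g ℓ
      · rw [if_pos ht, if_pos ⟨t, ht, rfl⟩]
        have e1 := pow_apply g (ℓ - j) x ((imEquiv g)^[j] t)
        rw [← Function.iterate_add_apply, Nat.sub_add_cancel (Finset.mem_range.1 hj).le] at e1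
        by_cases hU' : (imEquiv g)^[j] t ∈ chainSets U n
        · have hper : (imEquiv g)^[ℓ] t = t := (imEquiv g).injective.iterate j (by
            rw [← Function.iterate_add_apply, Nat.add_comm, Function.iterate_add_apply]
            exact period hg hU')
          rwa [hper] at e1
        · rw [eq_zero_of_notMem hx hU']
          refine eq_zero_of_notMem (pow_mem hU hx _) fun htU => hU' ?_
          by_contra hno
          have e3 := pow_apply g j (Finsupp.single t (1 : k)) t
          rw [eq_zero_of_notMem (pow_mem hU (single_mem_CC htU (1 : k)) j) hno,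
            Finsupp.single_eq_same] at e3
          exact zero_ne_one e3
      · rw [if_neg ht, if_neg]
        rintro ⟨t', ht', e⟩
        exact ht ((imEquiv g).injective.iterate j e ▸ ht')
    rw [Finset.sum_congr rfl key]
    exact sum_rep hg hx s
  refine ⟨-∑ j ∈ Finset.range ℓ, ∑ i ∈ Finset.range j, (pushG k g ^ i) (y j), ?_, ?_⟩
  · refine Submodule.neg_mem _ (Submodule.sum_mem _ fun j _ => Submodule.sum_mem _ fun i _ => ?_)
    exact pow_mem hU (cut_mem _ (pow_mem hU hx _)) i
  · conv_lhs => rw [hdec]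
    congr 1
    have tel : ∀ j, ∑ i ∈ Finset.range j, tau k g ((pushG k g ^ i) (y j)) =
        y j - (pushG k g ^ j) (y j) := by
      intro j
      have := Finset.sum_range_sub' (fun i => (pushG k g ^ i) (y j)) j
      simpa [tau, pow_succ'] using this
    rw [map_neg, map_sum, Finset.sum_congr rfl fun j _ => (map_sum _ _ _).trans (tel j),
      Finset.sum_sub_distrib, hsumy, zero_sub, neg_neg]

/-- The images of the norm and difference maps have no homology in degree `n`. -/
def SVan (k : Type*) [Field k] (g : α ≃o α) (ℓ : ℕ) (U : Set α) (n : ℕ) : Prop :=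
  (∀ v ∈ CC k U n, bd k α (sig k g ℓ v) = 0 →
      ∃ u ∈ CC k U (n + 1), bd k α (sig k g ℓ u) = sig k g ℓ v) ∧
    ∀ v ∈ CC k U n, bd k α (tau k g v) = 0 →
      ∃ u ∈ CC k U (n + 1), bd k α (tau k g u) = tau k g v

theorem pushG_pow_period (hg : ∀ a ∈ U, (⇑g)^[ℓ] a = a) {n : ℕ} {z : Finset α →₀ k}
    (hz : z ∈ CC k U n) : (pushG k g ^ ℓ) z = z := by
  refine CC_induction (P := fun z => (pushG k g ^ ℓ) z = z) hz (by simp)
    (fun x y hx hy => by rw [map_add, hx, hy]) (fun s hs c => ?_)
  ext t
  obtain ⟨u, rfl⟩ := ((imEquiv g).bijective.iterate ℓ).2 t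
  rw [pow_apply]
  by_cases hu : u = s
  · subst hu; rw [show (imEquiv g)^[ℓ] u = u from period hg hs]
  · rw [Finsupp.single_eq_of_ne hu, Finsupp.single_eq_of_ne]
    intro e
    exact hu ((imEquiv g).injective.iterate ℓ (e.trans (period hg hs).symm))

theorem sig_tau (hg : ∀ a ∈ U, (⇑g)^[ℓ] a = a) {n : ℕ} {z : Finset α →₀ k}
    (hz : z ∈ CC k U n) : sig k g ℓ (tau k g z) = 0 ∧ tau k g (sig k g ℓ z) = 0 := by
  have h1 : ∑ i ∈ Finset.range ℓ, ((pushG k g ^ i) z - (pushG k g ^ (i + 1)) z) = 0 := by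
    rw [Finset.sum_range_sub' (fun i => (pushG k g ^ i) z) ℓ, pushG_pow_period hg hz]; simp
  refine ⟨?_, ?_⟩
  · rw [← h1, sig, LinearMap.sum_apply]
    exact Finset.sum_congr rfl fun i _ => by simp [tau, pow_succ]
  · rw [← h1, sig, LinearMap.sum_apply, map_sum]
    exact Finset.sum_congr rfl fun i _ => by simp [tau, pow_succ']

/-- One step of the downward induction. -/
theorem step [CharP k ℓ] (hg : ∀ a ∈ U, (⇑g)^[ℓ] a = a) (hU : ∀ a ∈ U, g a ∈ U)
    (hA : ∀ n, Van k U n) {n : ℕ} (h : SVan k g ℓ U (n + 1)) :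
    SVan k g ℓ U n ∧ Van k (fixSet g U) n := by
  have hfixsub : CC k (fixSet g U) n ≤ CC k U n := CC_mono fun a ha => ha.1
  refine ⟨⟨fun v hv hb => ?_, fun v hv hb => ?_⟩, fun z hz hb => ?_⟩
  · obtain ⟨w, hw, hwb⟩ := hA n _ (sig_mem hU ℓ hv) hb
    obtain ⟨u, hu, hub⟩ := h.2 w hw (by rw [bd_tau, hwb, (sig_tau hg hv).2])
    set w' := w - bd k α u with hw'
    have hw'm : w' ∈ CC k U (n + 1) := sub_mem hw (bd_mem_CC hu)
    have hw'b : bd k α w' = sig k g ℓ v := by rw [hw', map_sub, bd_bd hu, hwb, sub_zero]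
    have hd := eq_sig_add hg hw'm (by rw [hw', map_sub, ← bd_tau, hub, sub_self])
    refine ⟨cut k (Rep g ℓ) w', cut_mem _ hw'm, ?_⟩
    have hf := cut_fix_mem (g := g) hw'm
    have e := congrArg (cut k (fixCh g)) hw'b
    rw [hd, map_add, map_add, bd_sig, cut_fix_sig, cut_fix_sig, zero_add,
      cut_of_mem_fixSet (bd_mem_CC hf)] at e
    rw [hd, map_add, e, add_zero] at hw'b
    exact hw'b
  · obtain ⟨w, hw, hwb⟩ := hA n _ (tau_mem hU hv) hb
    obtain ⟨u, hu, hub⟩ := h.1 w hw (by rw [bd_sig, hwb, (sig_tau hg hv).1])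
    set w' := w - bd k α u with hw'
    have hw'm : w' ∈ CC k U (n + 1) := sub_mem hw (bd_mem_CC hu)
    have hw'b : bd k α w' = tau k g v := by rw [hw', map_sub, bd_bd hu, hwb, sub_zero]
    obtain ⟨a, ha, hd⟩ := eq_tau_add hg hU hw'm (by rw [hw', map_sub, ← bd_sig, hub, sub_self])
    refine ⟨a, ha, ?_⟩
    have hf := cut_fix_mem (g := g) hw'm
    have e := congrArg (cut k (fixCh g)) hw'b
    rw [hd, map_add, map_add, bd_tau, cut_fix_tau, cut_fix_tau, zero_add,
      cut_of_mem_fixSet (bd_mem_CC hf)] at e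
    rw [hd, map_add, e, add_zero] at hw'b
    exact hw'b
  · obtain ⟨w, hw, hwb⟩ := hA n _ (hfixsub hz) hb
    have hz0 : tau k g z = 0 := by
      refine CC_induction (P := fun z => tau k g z = 0) hz (by simp)
        (fun x y hx hy => by rw [map_add, hx, hy, add_zero]) (fun s hs c => ?_)
      rw [tau, LinearMap.sub_apply, LinearMap.id_apply, pushG_single,
        (Finset.image_congr fun a ha => (hs.2.1 ha).2).trans Finset.image_id, sub_self]
    obtain ⟨u, hu, hub⟩ := h.2 w hw (by rw [bd_tau, hwb, hz0])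
    set w' := w - bd k α u with hw'
    have hw'm : w' ∈ CC k U (n + 1) := sub_mem hw (bd_mem_CC hu)
    have hw'b : bd k α w' = z := by rw [hw', map_sub, bd_bd hu, hwb, sub_zero]
    have hd := eq_sig_add hg hw'm (by rw [hw', map_sub, ← bd_tau, hub, sub_self])
    have hf := cut_fix_mem (g := g) hw'm
    refine ⟨_, hf, ?_⟩
    have e := congrArg (cut k (fixCh g)) hw'b
    rwa [hd, map_add, map_add, bd_sig, cut_fix_sig, zero_add,
      cut_of_mem_fixSet (bd_mem_CC hf), cut_of_mem_fixSet hz] at e

/-- **Smith theory.** Fixed points of an automorphism of order `ℓ` of an acyclic order complex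
over a field of characteristic `ℓ` form an acyclic order complex. -/
theorem fixed_acyclic [CharP k ℓ] (hg : ∀ a ∈ U, (⇑g)^[ℓ] a = a) (hU : ∀ a ∈ U, g a ∈ U)
    (hA : ∀ n, Van k U n) : ∀ n, Van k (fixSet g U) n := by
  have hbig : ∀ n, Fintype.card α < n → SVan k g ℓ U n := by
    intro n hn
    have h0 : ∀ v ∈ CC k U n, v = 0 := fun v hv => by
      refine CC_induction (P := fun v => v = 0) hv rfl (fun x y hx hy => by rw [hx, hy, add_zero])
        (fun s hs c => ?_)
      have := Finset.card_le_univ s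
      rw [hs.2.2] at this
      omega
    exact ⟨fun v hv _ => ⟨0, zero_mem _, by simp [h0 v hv]⟩,
      fun v hv _ => ⟨0, zero_mem _, by simp [h0 v hv]⟩⟩
  have hall : ∀ d n, Fintype.card α < n + d → SVan k g ℓ U n := by
    intro d
    induction d with
    | zero => exact fun n h => hbig n (by omega)
    | succ d ih => exact fun n h => (step hg hU hA (ih (n + 1) (by omega))).1
  exact fun n => (step hg hU hA (hall (Fintype.card α + 1) (n + 1) (by omega))).2

end Smith

end Vale.Agent.P240
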