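import Vale.Agent.P240.Smith.Basic

/-!
# Fixed points of groups of prime power order

Smith theory for a group of order a power of `ℓ`, and the Euler characteristic of an acyclic
order complex over any field.
-/

set_option linter.unusedSectionVars false

open scoped Classical

noncomputable section

namespace Vale.Agent.P240

namespace Smith

variable {k : Type*} [Field k] {α : Type*} [PartialOrder α] [Fintype α] {ℓ : ℕ} [Fact ℓ.Prime]

/-- Fixed points of an `ℓ`-group on an acyclic order complex are acyclic. -/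
theorem fixed_acyclic_group [CharP k ℓ] {P : Type*} [Group P] [Finite P] (hP : IsPGroup ℓ P)
    [MulAction P α] (hmono : ∀ (x : P) (a b : α), a ≤ b → x • a ≤ x • b) {U : Set α}
    (hU : ∀ (x : P), ∀ a ∈ U, x • a ∈ U) (hA : ∀ n, Van k U n) :
    ∀ n, Van k {a | a ∈ U ∧ ∀ x : P, x • a = a} n := by
  let oi : P → (α ≃o α) := fun x =>
    { toEquiv := MulAction.toPerm x
      map_rel_iff' := fun {a b} => ⟨fun h => by
        have := hmono x⁻¹ _ _ h
        simpa using this, hmono x a b⟩ }
  suffices h : ∀ H : Subgroup P, ∀ n, Van k {a | a ∈ U ∧ ∀ x ∈ H, x • a = a} n by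
    simpa using h ⊤
  intro H
  induction H using WellFoundedLT.induction with
  | ind H ih =>
  by_cases hH : H = ⊥
  · subst hH
    simpa using hA
  obtain ⟨c, hc, hc1⟩ := (Subgroup.bot_or_exists_ne_one H).resolve_left hH
  obtain ⟨N, hN⟩ := (Set.toFinite {N : Subgroup P | N < H}).exists_maximal
    ⟨⊥, bot_lt_iff_ne_bot.2 hH⟩
  have hNH : N ≤ H := hN.1.le
  -- `N` is normal in `H`
  have hnorm : ∀ h ∈ H, ∀ x ∈ N, h⁻¹ * x * h ∈ N := by
    have hnil : Group.IsNilpotent H := (hP.to_subgroup H).isNilpotent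
    have hco : IsCoatom (N.subgroupOf H) := by
      refine ⟨fun e => hN.1.ne (le_antisymm hNH (Subgroup.subgroupOf_eq_top.1 e)),
        fun K hK => ?_⟩
      by_contra hne
      set K' := K.map H.subtype with hK'
      have h1 : N ≤ K' := fun x hx => ⟨⟨x, hNH hx⟩, hK.le hx, rfl⟩
      have h2 : K' < H := lt_of_le_of_ne (Subgroup.map_subtype_le K) fun e => hne (by
        rw [eq_top_iff]
        intro y _
        obtain ⟨z, hz, e'⟩ := (e.symm ▸ y.2 : (y : P) ∈ K')
        rwa [← Subtype.ext e'])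
      have h3 : K' ≤ N := hN.2 h2 h1
      exact hK.not_ge fun y hy => h3 ⟨y, hy, rfl⟩
    have hn := Subgroup.NormalizerCondition.normal_of_coatom _ Group.normalizerCondition_of_isNilpotent hco
    intro h hh x hx
    have := hn.conj_mem ⟨x, hNH hx⟩ hx ⟨h, hh⟩⁻¹
    simpa [Subgroup.mem_subgroupOf] using this
  obtain ⟨g₀, hg₀H, hg₀N⟩ := SetLike.exists_of_lt (show N < H from hN.1)
  -- a power of `g₀` outside `N` whose `ℓ`-th power is in `N`
  obtain ⟨k₀, hk₀⟩ := hP g₀
  have hex : ∃ e, g₀ ^ ℓ ^ e ∈ N := ⟨k₀, by rw [hk₀]; exact N.one_mem⟩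
  have hpos : 0 < Nat.find hex := Nat.pos_of_ne_zero fun e => hg₀N (by
    have := Nat.find_spec hex
    rwa [e, pow_zero, pow_one] at this)
  set g := g₀ ^ ℓ ^ (Nat.find hex - 1) with hg
  have hgH : g ∈ H := H.pow_mem hg₀H _
  have hgN : g ∉ N := Nat.find_min hex (Nat.sub_lt hpos one_pos)
  have hgl : g ^ ℓ ∈ N := by
    rw [hg, ← pow_mul, ← pow_succ, Nat.sub_add_cancel hpos]
    exact Nat.find_spec hex
  set U1 : Set α := {a | a ∈ U ∧ ∀ x ∈ N, x • a = a} with hU1
  have hit : ∀ (i : ℕ) (a : α), (⇑(oi g))^[i] a = g ^ i • a := by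
    intro i
    induction i with
    | zero => intro a; simp
    | succ i ih =>
      intro a
      rw [Function.iterate_succ_apply', ih, pow_succ', mul_smul]
      rfl
  have h1 : ∀ a ∈ U1, oi g a ∈ U1 := fun a ha => ⟨hU g a ha.1, fun x hx => by
    show x • g • a = g • a
    rw [smul_smul, show x * g = g * (g⁻¹ * x * g) by group, mul_smul,
      ha.2 _ (hnorm g hgH x hx)]⟩
  have h2 := fixed_acyclic (g := oi g) (k := k) (ℓ := ℓ) (U := U1)
    (fun a ha => by rw [hit]; exact ha.2 _ hgl) h1 (ih N hN.1)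
  have hset : fixSet (oi g) U1 = {a | a ∈ U ∧ ∀ x ∈ H, x • a = a} := by
    ext a
    refine ⟨fun ⟨⟨ha, hNa⟩, hga⟩ => ⟨ha, fun x hx => ?_⟩,
      fun ⟨ha, hHa⟩ => ⟨⟨ha, fun x hx => hHa x (hNH hx)⟩, hHa g hgH⟩⟩
    have hle : H ≤ N ⊔ Subgroup.zpowers g := by
      by_contra hno
      have hlt : N ⊔ Subgroup.zpowers g < H :=
        lt_of_le_of_ne (sup_le hNH (Subgroup.zpowers_le.2 hgH)) fun e => hno e.ge
      exact hgN (hN.2 hlt le_sup_left (Subgroup.mem_sup_right (Subgroup.mem_zpowers g)))
    have hst : N ⊔ Subgroup.zpowers g ≤ MulAction.stabilizer P a :=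
      sup_le (fun y hy => hNa y hy) (Subgroup.zpowers_le.2 hga)
    exact hst (hle hx)
  intro n
  rw [← hset]
  exact h2 n

/-- An acyclic order complex has vanishing Euler characteristic. -/
theorem chi_eq_zero {U : Set α} (hA : ∀ n, Van k U n) : Chi U = 0 := by
  set c : ℕ → ℕ := fun n => ((allChains U).filter fun s => s.card = n).card with hc
  set b : ℕ → ℕ := fun n => Module.finrank k ((CC k U (n + 1)).map (bd k α)) with hb
  let : AddCommGroup (Finset α →₀ k) := Finsupp.instAddCommGroup
  have : Module.Finite k (Finset α →₀ k) := inferInstance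
  have hfr : ∀ n, Module.finrank k (CC k U n) = c n := by
    intro n
    rw [CC, LinearEquiv.finrank_eq (Finsupp.supportedEquivFinsupp _), Module.finrank_finsupp_self,
      ← Nat.card_eq_fintype_card, hc]
    beta_reduce
    rw [← Nat.card_eq_finsetCard]
    refine Nat.card_congr (Equiv.subtypeEquivRight fun s => ?_)
    simp [chainSets, mem_allChains, and_assoc]
  have hker : ∀ n, LinearMap.ker ((bd k α).domRestrict (CC k U n)) =
      ((CC k U (n + 1)).map (bd k α)).comap (CC k U n).subtype := by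
    intro n
    ext z
    refine ⟨fun hz => ?_, fun hz => ?_⟩
    · obtain ⟨w, hw, e⟩ := hA n z z.2 hz
      exact ⟨w, hw, e⟩
    · obtain ⟨w, hw, e⟩ := hz
      show bd k α (z : Finset α →₀ k) = 0
      rw [← show bd k α w = (z : Finset α →₀ k) from e, bd_bd hw]
  have hsplit : ∀ n, c n = Module.finrank k ((CC k U n).map (bd k α)) + b n := by
    intro n
    rw [← hfr, ← LinearMap.finrank_range_add_finrank_ker ((bd k α).domRestrict (CC k U n)),
      LinearMap.range_domRestrict, hker]
    congr 1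
    have hle : (CC k U (n + 1)).map (bd k α) ≤ CC k U n :=
      Submodule.map_le_iff_le_comap.2 fun w hw => bd_mem_CC hw
    rw [hb]
    exact (Submodule.comapSubtypeEquivOfLe hle).finrank_eq
  have h0 : c 0 = b 0 := by
    rw [hsplit 0, show (CC k U 0).map (bd k α) = ⊥ from ?_, finrank_bot, zero_add]
    rw [eq_bot_iff]
    rintro _ ⟨z, hz, rfl⟩
    exact (Submodule.mem_bot _).2 (bd_CC_zero hz)
  have hsum : ∀ N, ∑ n ∈ Finset.range (N + 1), (-1 : ℤ) ^ n * c n = (-1) ^ N * b N := by
    intro N
    induction N with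
    | zero => simp [h0]
    | succ N ih =>
      rw [Finset.sum_range_succ, ih, hsplit (N + 1)]
      show _ + (-1 : ℤ) ^ (N + 1) * ((b N + b (N + 1) : ℕ) : ℤ) = _
      push_cast
      ring
  have hbN : b (Fintype.card α) = 0 := by
    have : CC k U (Fintype.card α + 1) = ⊥ := by
      rw [eq_bot_iff]
      intro z hz
      refine CC_induction (P := fun z => z ∈ (⊥ : Submodule k _)) hz (zero_mem _)
        (fun x y => add_mem) (fun s hs r => ?_)
      have h1 := Finset.card_le_univ s
      rw [hs.2.2] at h1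
      omega
    simp only [hb]
    rw [this, Submodule.map_bot, finrank_bot]
  have hchi : Chi U = ∑ n ∈ Finset.range (Fintype.card α + 1), (-1 : ℤ) ^ n * c n := by
    rw [Chi, ← Finset.sum_fiberwise_of_maps_to (g := Finset.card)
      (t := Finset.range (Fintype.card α + 1))
      (fun s _ => Finset.mem_range.2 (Nat.lt_succ_of_le (Finset.card_le_univ s)))]
    refine Finset.sum_congr rfl fun n _ => ?_
    rw [Finset.sum_congr rfl (fun s hs => by rw [(Finset.mem_filter.1 hs).2]), Finset.sum_const,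
      nsmul_eq_mul, mul_comm]
  rw [hchi, hsum, hbN]
  simp

end Smith

end Vale.Agent.P240
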