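import Vale.Agent.P240.Smith.Iterate
import Vale.Agent.P240.Modular.Descend

/-!
# Acyclicity in positive characteristic implies rational acyclicity
-/

set_option linter.unusedSectionVars false

open scoped Classical

noncomputable section

namespace Vale.Agent.P240

namespace Smith

variable {α : Type*} [PartialOrder α]

/-- The boundary of a simplex with integer coefficients. -/
def bdInt (s : Finset α) : Finset α →₀ ℤ :=
  ∑ a ∈ s, Finsupp.single (s.erase a) ((-1 : ℤ) ^ below s a)

/-- Change of coefficients from the integers. -/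
def toK (K : Type*) [Field K] : (Finset α →₀ ℤ) →+ (Finset α →₀ K) :=
  Finsupp.mapRange.addMonoidHom (Int.castRingHom K).toAddMonoidHom

theorem toK_bdInt (K : Type*) [Field K] (s : Finset α) :
    toK K (bdInt s) = bd K α (Finsupp.single s 1) := by
  rw [bd_single, bdInt, map_sum]
  exact Finset.sum_congr rfl fun a _ => by simp [toK]

theorem toK_zsmul (K : Type*) [Field K] (c : ℤ) (v : Finset α →₀ ℤ) :
    toK K (c • v) = (c : K) • toK K v := by
  rw [map_zsmul, ← Int.cast_smul_eq_zsmul K]

/-- Integer vectors independent modulo `r` are independent over the rationals. -/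
theorem linearIndependent_rat {k : Type*} [Field k] {r : ℕ} [Fact r.Prime] [CharP k r]
    {β : Type*} [Fintype β] (v : β → (Finset α →₀ ℤ))
    (h : LinearIndependent k fun b => toK k (v b)) :
    LinearIndependent ℚ fun b => toK ℚ (v b) := by
  rw [Fintype.linearIndependent_iff] at h
  have hint : ∀ g : β → ℤ, ∑ b, g b • v b = 0 → g = 0 := by
    intro g
    induction hn : ∑ b, (g b).natAbs using Nat.strong_induction_on generalizing g with
    | _ n ih =>
    intro hg
    by_contra hne
    have hd : ∀ b, (r : ℤ) ∣ g b := fun b => by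
      rw [← CharP.intCast_eq_zero_iff k]
      refine h (fun b => (g b : k)) ?_ b
      have := congrArg (toK k) hg
      rw [map_sum, map_zero] at this
      simpa [toK_zsmul] using this
    choose g' hg' using hd
    have hg'0 : ∑ b, g' b • v b = 0 := by
      have h1 : (r : ℤ) • ∑ b, g' b • v b = 0 := by
        rw [Finset.smul_sum, ← hg]
        exact Finset.sum_congr rfl fun b _ => by rw [smul_smul, ← hg']
      exact (smul_eq_zero.1 h1).resolve_left (Nat.cast_ne_zero.2 (Fact.out : r.Prime).ne_zero)
    obtain ⟨b₀, hb₀⟩ := Function.ne_iff.1 hne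
    have hb₀' : g' b₀ ≠ 0 := fun e => hb₀ (by rw [hg', e, mul_zero]; rfl)
    have hlt : ∑ b, (g' b).natAbs < n := by
      rw [← hn]
      refine Finset.sum_lt_sum (fun b _ => ?_) ⟨b₀, Finset.mem_univ _, ?_⟩
      · rw [hg' b, Int.natAbs_mul, Int.natAbs_natCast]
        exact Nat.le_mul_of_pos_left _ (Fact.out : r.Prime).pos
      · rw [hg' b₀, Int.natAbs_mul, Int.natAbs_natCast]
        exact lt_mul_of_one_lt_left (Int.natAbs_pos.2 hb₀') (Fact.out : r.Prime).one_lt
    exact hb₀' (congrFun (ih _ hlt g' rfl hg'0) b₀)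
  rw [Fintype.linearIndependent_iff]
  intro g hg
  -- clear denominators
  set D : ℕ := ∏ b, (g b).den with hD
  have hD0 : (D : ℚ) ≠ 0 :=
    Nat.cast_ne_zero.2 (Finset.prod_ne_zero_iff.2 fun b _ => (g b).den_ne_zero)
  have hc : ∀ b, ∃ c : ℤ, (c : ℚ) = (D : ℚ) * g b := fun b =>
    ⟨(g b).num * ((∏ b' ∈ Finset.univ.erase b, (g b').den : ℕ) : ℤ), by
      rw [hD, ← Finset.mul_prod_erase Finset.univ _ (Finset.mem_univ b)]
      push_cast
      rw [← Rat.mul_den_eq_num (g b)]
      ring⟩
  choose c hc using hc
  have h0 : ∑ b, c b • v b = 0 := by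
    have h1 : toK ℚ (∑ b, c b • v b) = 0 := by
      rw [map_sum]
      simp only [toK_zsmul, hc, mul_smul]
      rw [← Finset.smul_sum, hg, smul_zero]
    exact Finsupp.mapRange_injective _ (map_zero _) Int.cast_injective
      (h1.trans (map_zero (toK ℚ)).symm)
  intro b
  have := congrFun (hint c h0) b
  have h2 := hc b
  rw [this] at h2
  simpa [hD0] using h2.symm

variable [Fintype α]

/-- The rank of the boundary map in degree `n`. -/
def rk (K : Type*) [Field K] (U : Set α) (n : ℕ) : ℕ :=
  Module.finrank K ((CC K U n).map (bd K α))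

theorem rk_le {k : Type*} [Field k] {r : ℕ} [Fact r.Prime] [CharP k r] (U : Set α) (n : ℕ) :
    rk k U n ≤ rk ℚ U n := by
  set f : chainSets U n → (Finset α →₀ k) := fun s => toK k (bdInt (s : Finset α)) with hf
  have hspan : ∀ (K : Type) [Field K], (CC K U n).map (bd K α) =
      Submodule.span K (Set.range fun s : chainSets U n => toK K (bdInt (s : Finset α))) := by
    intro K _
    rw [CC, Finsupp.supported_eq_span_single, Submodule.map_span, Set.image_image]
    congr 1
    ext x
    simp [toK_bdInt]
  have hspan' : (CC k U n).map (bd k α) = Submodule.span k (Set.range f) := by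
    rw [CC, Finsupp.supported_eq_span_single, Submodule.map_span, Set.image_image]
    congr 1
    ext x
    simp [hf, toK_bdInt]
  obtain ⟨t, ht, hts, hli⟩ := exists_linearIndependent k (Set.range f)
  have hfin : t.Finite := Set.Finite.subset (Set.toFinite _) ht
  let : Fintype t := hfin.fintype
  choose σ hσ using fun x : t => ht x.2
  have hli' : LinearIndependent k fun x : t => toK k (bdInt (σ x : Finset α)) := by
    have : (fun x : t => toK k (bdInt (σ x : Finset α))) = Subtype.val := funext hσ
    rw [this]; exact hli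
  have hQ := linearIndependent_rat (fun x : t => bdInt (σ x : Finset α)) hli'
  let : AddCommGroup (Finset α →₀ k) := Finsupp.instAddCommGroup
  have e1 : rk k U n = Fintype.card t := by
    rw [rk, hspan', ← hts]
    rw [finrank_span_set_eq_card hli, Set.toFinset_card]
  rw [e1, rk, hspan, ← finrank_span_eq_card hQ]
  refine Submodule.finrank_mono (Submodule.span_mono ?_)
  rintro _ ⟨x, rfl⟩
  exact ⟨σ x, rfl⟩

theorem finrank_CC (K : Type*) [Field K] (U : Set α) (n : ℕ) :
    Module.finrank K (CC K U n) = Nat.card (chainSets U n) := by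
  rw [CC, LinearEquiv.finrank_eq (Finsupp.supportedEquivFinsupp _), Module.finrank_finsupp_self,
    Nat.card_eq_fintype_card]

/-- An order complex which is acyclic in characteristic `r` is rationally acyclic. -/
theorem van_rat {k : Type*} [Field k] {r : ℕ} [Fact r.Prime] [CharP k r] {U : Set α}
    (hA : ∀ n, Van k U n) : ∀ n, Van ℚ U n := by
  intro n z hz hz0
  let : AddCommGroup (Finset α →₀ k) := Finsupp.instAddCommGroup
  have hksum : Nat.card (chainSets U n) = rk k U n + rk k U (n + 1) := by
    rw [← finrank_CC k, ← LinearMap.finrank_range_add_finrank_ker ((bd k α).domRestrict (CC k U n)),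
      LinearMap.range_domRestrict]
    congr 1
    have hker : LinearMap.ker ((bd k α).domRestrict (CC k U n)) =
        ((CC k U (n + 1)).map (bd k α)).comap (CC k U n).subtype := by
      ext z
      refine ⟨fun hz => ?_, fun hz => ?_⟩
      · obtain ⟨w, hw, e⟩ := hA n z z.2 hz
        exact ⟨w, hw, e⟩
      · obtain ⟨w, hw, e⟩ := hz
        show bd k α (z : Finset α →₀ k) = 0
        rw [← show bd k α w = (z : Finset α →₀ k) from e, bd_bd hw]
    have hmap : (CC k U (n + 1)).map (bd k α) ≤ CC k U n :=
      Submodule.map_le_iff_le_comap.2 fun w hw => bd_mem_CC hw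
    rw [hker]
    exact (Submodule.comapSubtypeEquivOfLe hmap).finrank_eq
  have hQsum : Nat.card (chainSets U n) = rk ℚ U n +
      Module.finrank ℚ (LinearMap.ker ((bd ℚ α).domRestrict (CC ℚ U n))) := by
    rw [← finrank_CC ℚ, ← LinearMap.finrank_range_add_finrank_ker ((bd ℚ α).domRestrict (CC ℚ U n)),
      LinearMap.range_domRestrict]
    rfl
  have hle : ((CC ℚ U (n + 1)).map (bd ℚ α)).comap (CC ℚ U n).subtype ≤
      LinearMap.ker ((bd ℚ α).domRestrict (CC ℚ U n)) := by
    intro x hx
    obtain ⟨w, hw, e⟩ := hx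
    show bd ℚ α (x : Finset α →₀ ℚ) = 0
    rw [← show bd ℚ α w = (x : Finset α →₀ ℚ) from e, bd_bd hw]
  have hrange : Module.finrank ℚ
      (((CC ℚ U (n + 1)).map (bd ℚ α)).comap (CC ℚ U n).subtype) = rk ℚ U (n + 1) := by
    have hmap : (CC ℚ U (n + 1)).map (bd ℚ α) ≤ CC ℚ U n :=
      Submodule.map_le_iff_le_comap.2 fun w hw => bd_mem_CC hw
    exact (Submodule.comapSubtypeEquivOfLe hmap).finrank_eq
  have h1 := rk_le (k := k) (r := r) U n
  have h2 := rk_le (k := k) (r := r) U (n + 1)
  have heq := Submodule.eq_of_le_of_finrank_le hle (by rw [hrange]; omega)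
  obtain ⟨w, hw, e⟩ : (⟨z, hz⟩ : CC ℚ U n) ∈
      ((CC ℚ U (n + 1)).map (bd ℚ α)).comap (CC ℚ U n).subtype := by
    rw [heq]; exact hz0
  exact ⟨w, hw, e⟩

/-- An order complex which is acyclic in characteristic `r` is acyclic over the complex
numbers. -/
theorem not_hasReducedHomology_complex {k : Type*} [Field k] {r : ℕ} [Fact r.Prime] [CharP k r]
    {U : Set α} (hA : ∀ n, Van k U n) : ¬ HasReducedHomology ℂ U := by
  intro h
  have h' := hasReducedHomology_iff.1 (hasReducedHomology_rat h)
  obtain ⟨n, hn⟩ := h'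
  exact hn (van_rat hA n)

end Smith

end Vale.Agent.P240
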